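import Vale.Agent.P196.S0.Simple
import Mathlib.Logic.Equiv.Fin.Basic

/-!
# P196: the group `grp (Fin 12) LS` as a group of permutations of `ℤ²` of bounded displacement
-/

noncomputable section

namespace Vale.Agent.P196.H370

open Equiv Vale.Agent.P196.S0

variable {ι : Type} [Fintype ι] [DecidableEq ι] {LS : Set (Set Z2)}

/-- Bounded displacement. -/
theorem bounded (g : Perm (Z2 × ι)) (hg : g ∈ grp ι LS) :
    ∃ r : ℤ, ∀ z, |(g z).1.1 - z.1.1| ≤ r ∧ |(g z).1.2 - z.1.2| ≤ r := by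
  induction hg using Subgroup.closure_induction with
  | mem g hg =>
    rcases hg with ⟨E, hE, a, ha, rfl⟩ | ⟨w, hw, rfl⟩
    · refine ⟨0, fun z => ?_⟩
      obtain ⟨u, f⟩ := z
      by_cases hu : u ∈ E
      · rw [eP_apply_mem hu]; simp
      · rw [eP_apply_notMem hu]; simp
    · refine ⟨∑ f, (|(w f).1| + |(w f).2|), fun z => ?_⟩
      obtain ⟨u, f⟩ := z
      rw [dP_apply]
      have h1 : |(w f).1| + |(w f).2| ≤ ∑ f, (|(w f).1| + |(w f).2|) :=
        Finset.single_le_sum (f := fun f => |(w f).1| + |(w f).2|)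
          (fun i _ => by positivity) (Finset.mem_univ f)
      have h2 := abs_nonneg (w f).1
      have h3 := abs_nonneg (w f).2
      simp only [Prod.fst_add, Prod.snd_add, add_sub_cancel_left]
      constructor <;> linarith
  | one => exact ⟨0, fun z => by simp⟩
  | mul g h _ _ ihg ihh =>
    obtain ⟨r, hr⟩ := ihg
    obtain ⟨s, hs⟩ := ihh
    refine ⟨r + s, fun z => ?_⟩
    rw [Perm.mul_apply]
    obtain ⟨h1, h2⟩ := hr (h z)
    obtain ⟨h3, h4⟩ := hs z
    rw [abs_le] at h1 h2 h3 h4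
    exact ⟨abs_le.2 ⟨by linarith [h1.1, h3.1], by linarith [h1.2, h3.2]⟩,
      abs_le.2 ⟨by linarith [h2.1, h4.1], by linarith [h2.2, h4.2]⟩⟩
  | inv g _ ih =>
    obtain ⟨r, hr⟩ := ih
    refine ⟨r, fun z => ?_⟩
    have h := hr (g⁻¹ z)
    have h1 : g (g⁻¹ z) = z := g.apply_symm_apply z
    rw [h1] at h
    exact ⟨by rw [abs_sub_comm]; exact h.1, by rw [abs_sub_comm]; exact h.2⟩

/-- The sites of `ℤ² × 12` as the points of `ℤ²`. -/
def flat : Z2 × Fin 12 ≃ ℤ × ℤ where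
  toFun z := ((Int.divModEquiv 12).symm (z.1.1, z.2), z.1.2)
  invFun u := ((((Int.divModEquiv 12) u.1).1, u.2), ((Int.divModEquiv 12) u.1).2)
  left_inv z := by
    have h := (Int.divModEquiv 12).apply_symm_apply (z.1.1, z.2)
    have h1 : ((Int.divModEquiv 12) ((Int.divModEquiv 12).symm (z.1.1, z.2))).1 = z.1.1 := by
      rw [h]
    have h2 : ((Int.divModEquiv 12) ((Int.divModEquiv 12).symm (z.1.1, z.2))).2 = z.2 := by
      rw [h]
    exact Prod.ext (Prod.ext h1 rfl) h2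
  right_inv u := Prod.ext ((Int.divModEquiv 12).symm_apply_apply u.1) rfl

theorem flat_fst (z : Z2 × Fin 12) : (flat z).1 = z.1.1 * 12 + (z.2 : ℤ) := rfl

/-- The group as a group of permutations of `ℤ²` of bounded displacement. -/
theorem wobbling (LS : Set (Set Z2)) :
    ∃ φ : grp (Fin 12) LS →* Perm (ℤ × ℤ), Function.Injective φ ∧
      ∀ g, ∃ r : ℤ, ∀ x, |(φ g x).1 - x.1| ≤ r ∧ |(φ g x).2 - x.2| ≤ r := by
  refine ⟨flat.permCongrHom.toMonoidHom.comp (grp (Fin 12) LS).subtype, ?_, ?_⟩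
  · exact flat.permCongrHom.injective.comp Subtype.val_injective
  · rintro ⟨g, hg⟩
    obtain ⟨r, hr⟩ := bounded g hg
    refine ⟨12 * r + 12, fun x => ?_⟩
    obtain ⟨z, rfl⟩ := flat.surjective x
    have h1 : (flat.permCongrHom.toMonoidHom.comp (grp (Fin 12) LS).subtype) ⟨g, hg⟩ (flat z) =
        flat (g z) := by
      change flat (g (flat.symm (flat z))) = _
      rw [Equiv.symm_apply_apply]
    rw [h1]
    obtain ⟨h2, h3⟩ := hr z
    have h4 : ((g z).2 : ℕ) < 12 := (g z).2.2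
    have h5 : ((z.2 : Fin 12) : ℕ) < 12 := z.2.2
    have h0 : 0 ≤ r := (abs_nonneg _).trans h2
    rw [flat_fst, flat_fst]
    change _ ∧ |(g z).1.2 - z.1.2| ≤ _
    rw [abs_le] at h2
    refine ⟨abs_le.2 ⟨?_, ?_⟩, by linarith⟩ <;> omega

/-- An element of infinite order. -/
theorem infinite_order (hι : 5 ≤ Fintype.card ι) : ∃ g : grp ι LS, ¬ IsOfFinOrder g := by
  obtain ⟨i, -⟩ := exists_floor hι ∅ (by simp)
  obtain ⟨j, hj⟩ := exists_floor hι {i} (by simp)
  simp only [Finset.mem_singleton] at hj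
  set w : ι → Z2 := Pi.single i ((1, 0) : Z2) - Pi.single j ((1, 0) : Z2) with hw
  have hsum : ∑ x, w x = 0 := by simp [hw, Finset.sum_sub_distrib]
  refine ⟨⟨dP w, dP_mem hsum⟩, ?_⟩
  rw [isOfFinOrder_iff_pow_eq_one]
  rintro ⟨n, hn, h⟩
  have h1 : dP w ^ n = 1 := congrArg Subtype.val h
  have h2 : ∀ k : ℕ, (dP w ^ k) ((0, 0), i) = ((k : ℤ) • w i, i) := by
    intro k
    induction k with
    | zero => simp
    | succ k ih =>
      rw [pow_succ', Perm.mul_apply, ih, dP_apply]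
      refine Prod.ext ?_ rfl
      push_cast
      rw [add_smul, one_smul]
  have h3 := h2 n
  rw [h1, Perm.one_apply] at h3
  have h4 : w i = (1, 0) := by
    rw [hw, Pi.sub_apply, Pi.single_eq_same, Pi.single_eq_of_ne (Ne.symm hj), sub_zero]
  rw [h4] at h3
  have h5 := congrArg (fun z : Z2 × ι => z.1.1) h3
  simp at h5
  omega

end Vale.Agent.P196.H370
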