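import Vale.Agent.P196.H370.Defs
import Vale.Agent.P196.H476.EA
import Vale.Agent.P196.H476.LEF

/-!
# P196: the definitions of `H370/Defs.lean` and those of `H476`
-/

namespace Vale.Agent.P196.H370

theorem ea_iff (G : Type) [Group G] (h : ElementaryAmenable G) : H476.ElementaryAmenable G := by
  induction h with
  | finite G h => exact .finite G h
  | abelian G h => exact .abelian G h
  | iso G H e _ ih => exact .iso G H e ih
  | subgroup G H _ ih => exact .subgroup G H ih
  | quotient G N _ ih => exact .quotient G N ih
  | extension G N _ _ ih ih' => exact .extension G N ih ih'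
  | directedUnion G ι H hd hU _ ih => exact .directedUnion G ι H hd hU ih

theorem not_ea (G : Type) [Group G] (hG : Group.FG G) (hs : IsSimpleGroup G) (hi : Infinite G) :
    ¬ ElementaryAmenable G :=
  fun h => H476.not_EA_of_fg_simple_infinite G hG hs hi (ea_iff G h)

theorem not_lef (G : Type) [Group G] (hG : Group.IsFinitelyPresented G) (hs : IsSimpleGroup G)
    (hi : Infinite G) : ¬ LocallyEmbeddableIntoFinite G :=
  H476.not_LEF_of_fp_simple_infinite G hG hs hi

end Vale.Agent.P196.H370
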