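import Mathlib

/-!
# P196: groups which contain their wreath products with all finite groups
-/

noncomputable section

namespace Vale.Agent.P196.H370

open RegularWreathProduct Function

/-- The map of wreath products. -/
def wmap {D₁ D₂ : Type} [Group D₁] [Group D₂] (Q : Type) [Group Q] (f : D₁ →* D₂) :
    D₁ ≀ᵣ Q →* D₂ ≀ᵣ Q where
  toFun w := ⟨fun x => f (w.left x), w.right⟩
  map_one' := by ext <;> simp
  map_mul' a b := by ext <;> simp

theorem wmap_injective {D₁ D₂ : Type} [Group D₁] [Group D₂] (Q : Type) [Group Q] (f : D₁ →* D₂)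
    (hf : Injective f) : Injective (wmap Q f) := by
  intro a b h
  ext x
  · exact hf (congrFun (congrArg RegularWreathProduct.left h) x)
  · exact congrArg (fun z : D₂ ≀ᵣ Q => z.right) h

/-- The universal embedding theorem (Kaloujnine and Krasner). -/
theorem kk (L : Type) [Group L] (N : Subgroup L) [hN : N.Normal] :
    ∃ φ : L →* N ≀ᵣ (L ⧸ N), Injective φ := by
  have hs : ∀ q : L ⧸ N, ((Quotient.out q : L) : L ⧸ N) = q := fun q => Quotient.out_eq' q
  have hmem : ∀ (l : L) (q : L ⧸ N),
      (Quotient.out q)⁻¹ * l * Quotient.out ((l : L ⧸ N)⁻¹ * q) ∈ N := by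
    intro l q
    rw [← QuotientGroup.eq_one_iff]
    simp only [QuotientGroup.mk_mul, QuotientGroup.mk_inv, hs]
    group
  refine ⟨{ toFun := fun l =>
              ⟨fun q => ⟨(Quotient.out q)⁻¹ * l * Quotient.out ((l : L ⧸ N)⁻¹ * q), hmem l q⟩,
                (l : L ⧸ N)⟩
            map_one' := ?_
            map_mul' := ?_ }, ?_⟩
  · ext q
    · simp
    · simp
  · intro a b
    ext q
    · simp only [mul_left, Pi.mul_apply, Subgroup.coe_mul, QuotientGroup.mk_mul, mul_inv_rev]
      simp only [mul_assoc, mul_inv_cancel_left]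
    · simp
  · rw [injective_iff_map_eq_one]
    intro l hl
    have h1 : (l : L ⧸ N) = 1 := congrArg RegularWreathProduct.right hl
    have h2 := congrArg Subtype.val (congrFun (congrArg RegularWreathProduct.left hl) 1)
    change (Quotient.out (1 : L ⧸ N))⁻¹ * l * Quotient.out ((l : L ⧸ N)⁻¹ * 1) = 1 at h2
    rw [h1, inv_one, one_mul] at h2
    have h3 : l = Quotient.out (1 : L ⧸ N) * 1 * (Quotient.out (1 : L ⧸ N))⁻¹ := by
      rw [← h2]; group
    rw [h3]; group

variable {G : Type} [Group G]

/-- If `G` contains its wreath products with finite groups, then every group with a subgroup of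
finite index which embeds in `G` embeds in `G`. -/
theorem of_finite_index (hG : ∀ (Q : Type) [Group Q] [Finite Q], ∃ φ : G ≀ᵣ Q →* G, Injective φ)
    (L : Type) [Group L] (K : Subgroup L) [K.FiniteIndex] (f : K →* G) (hf : Injective f) :
    ∃ φ : L →* G, Injective φ := by
  have hle : K.normalCore ≤ K := Subgroup.normalCore_le K
  obtain ⟨φ, hφ⟩ := kk L K.normalCore
  have : Finite (L ⧸ K.normalCore) := Subgroup.finite_quotient_of_finiteIndex
  obtain ⟨ψ, hψ⟩ := hG (L ⧸ K.normalCore)
  have hi : Injective (f.comp (Subgroup.inclusion hle)) := fun a b h =>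
    Subgroup.inclusion_injective hle (hf h)
  exact ⟨(ψ.comp (wmap _ (f.comp (Subgroup.inclusion hle)))).comp φ,
    (hψ.comp (wmap_injective _ _ hi)).comp hφ⟩

/-- The base group of the wreath product. -/
def base' (Q : Type) [Group Q] : (Q → G) →* G ≀ᵣ Q where
  toFun a := ⟨a, 1⟩
  map_one' := rfl
  map_mul' a b := by ext <;> simp

theorem free_abelian (hG : ∀ (Q : Type) [Group Q] [Finite Q], ∃ φ : G ≀ᵣ Q →* G, Injective φ)
    (g : G) (hg : ¬ IsOfFinOrder g) (d : ℕ) :
    ∃ φ : Multiplicative (Fin d → ℤ) →* G, Injective φ := by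
  obtain ⟨ψ, hψ⟩ := hG (Multiplicative (ZMod (d + 1)))
  let j : Multiplicative (ZMod (d + 1)) ≃ Fin (d + 1) := Multiplicative.toAdd
  have hb : Injective (base' (G := G) (Multiplicative (ZMod (d + 1)))) := fun a b h =>
    congrArg RegularWreathProduct.left h
  let t : Multiplicative (Fin d → ℤ) →* (Multiplicative (ZMod (d + 1)) → G) :=
    { toFun := fun v x => if h : ((j x : Fin (d + 1)) : ℕ) < d then
        g ^ (Multiplicative.toAdd v ⟨_, h⟩) else 1
      map_one' := by ext x; by_cases h : ((j x : Fin (d + 1)) : ℕ) < d <;> simp [h]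
      map_mul' := fun a b => by
        ext x; by_cases h : ((j x : Fin (d + 1)) : ℕ) < d <;> simp [h, zpow_add] }
  have ht : Injective t := by
    intro a b h
    refine Multiplicative.toAdd.injective (funext fun i => ?_)
    have h1 := congrFun h (j.symm ⟨i, i.2.trans (Nat.lt_succ_self d)⟩)
    have h2 : ((j (j.symm ⟨i, i.2.trans (Nat.lt_succ_self d)⟩) : Fin (d + 1)) : ℕ) < d := by
      rw [Equiv.apply_symm_apply]; exact i.2
    change (if h : _ then g ^ (Multiplicative.toAdd a ⟨_, h⟩) else 1) =
      (if h : _ then g ^ (Multiplicative.toAdd b ⟨_, h⟩) else 1) at h1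
    rw [dif_pos h2, dif_pos h2] at h1
    have h3 := (injective_zpow_iff_not_isOfFinOrder.2 hg) h1
    have h4 : (⟨((j (j.symm ⟨i, i.2.trans (Nat.lt_succ_self d)⟩) : Fin (d + 1)) : ℕ), h2⟩ :
        Fin d) = i := Fin.ext (by
      change ((j (j.symm ⟨i, i.2.trans (Nat.lt_succ_self d)⟩) : Fin (d + 1)) : ℕ) = i
      rw [Equiv.apply_symm_apply])
    rw [h4] at h3
    exact h3
  exact ⟨(ψ.comp (base' _)).comp t, (hψ.comp hb).comp ht⟩

end Vale.Agent.P196.H370
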