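import Mathlib.Algebra.Group.Subgroup.Basic
import Mathlib.GroupTheory.QuotientGroup.Basic
import Mathlib.GroupTheory.Finiteness
import Mathlib.Data.Finset.Basic

/-!
# P196: definitions used in the statement of `PlanarPermutations`
-/

namespace Vale.Agent.P196.H370

/-- The group `A` is isomorphic to a subgroup of `B`. -/
def Embeds (A B : Type) [Group A] [Group B] : Prop := ∃ φ : A →* B, Function.Injective φ

/-- Elementary amenable groups (Day): the smallest class of groups that contains all finite groups
and all abelian groups and is closed under isomorphism, subgroups, quotients, extensions and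
directed unions. -/
inductive ElementaryAmenable : (G : Type) → [Group G] → Prop
  | finite (G : Type) [Group G] (h : Finite G) : ElementaryAmenable G
  | abelian (G : Type) [Group G] (h : ∀ a b : G, a * b = b * a) : ElementaryAmenable G
  | iso (G H : Type) [Group G] [Group H] (e : G ≃* H) (h : ElementaryAmenable G) :
      ElementaryAmenable H
  | subgroup (G : Type) [Group G] (H : Subgroup G) (h : ElementaryAmenable G) :
      ElementaryAmenable H
  | quotient (G : Type) [Group G] (N : Subgroup G) [N.Normal] (h : ElementaryAmenable G) :
      ElementaryAmenable (G ⧸ N)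
  | extension (G : Type) [Group G] (N : Subgroup G) [N.Normal] (h : ElementaryAmenable N)
      (h' : ElementaryAmenable (G ⧸ N)) : ElementaryAmenable G
  | directedUnion (G : Type) [Group G] (ι : Type) [Nonempty ι] (H : ι → Subgroup G)
      (hd : Directed (· ≤ ·) H) (hU : ∀ g : G, ∃ i, g ∈ H i)
      (h : ∀ i, ElementaryAmenable (H i)) : ElementaryAmenable G

/-- Locally embeddable into finite groups: every finite subset `E` admits an injective map into a
finite group that preserves every product `g * h` with `g, h, g * h` in `E`. -/
def LocallyEmbeddableIntoFinite (G : Type) [Group G] : Prop :=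
  ∀ E : Finset G, ∃ (F : Type) (_ : Group F) (_ : Finite F) (φ : G → F),
    Set.InjOn φ E ∧ ∀ g ∈ E, ∀ h ∈ E, g * h ∈ E → φ (g * h) = φ g * φ h

end Vale.Agent.P196.H370
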