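import Vale.Agent.P196.H370.Wreath
import Vale.Agent.P196.H370.Closure
import Vale.Agent.P196.H370.Bounded
import Vale.Agent.P196.H513.FinalMod
import Vale.Agent.P196.Cut.Fact
import Vale.Agent.P196.Cut.StmtC979
import Vale.Agent.P196.Cut.StmtE
import Vale.Agent.P196.Cut.StmtF
import Vale.Agent.P196.H697.StmtA
import Vale.Agent.P196.H798.Dec4
import Mathlib.GroupTheory.PresentedGroup

/-!
# P196: properties of the group `grp (Fin 12) LS`
-/

noncomputable section

namespace Vale.Agent.P196.H370

open Equiv Vale.Agent.P196.S0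

/-- The group. -/
abbrev GG : Subgroup (Perm (Z2 × Fin 12)) := grp (Fin 12) Wang.LS

theorem gg_infinite : Infinite GG := infinite_grp (by simp)

theorem gg_simple : IsSimpleGroup GG := isSimple (by simp) Wang.localSets

theorem gg_amenable : IsAmenable GG := H964.isAmenable_grp_wang (Fin 12)

theorem gg_fp : Group.IsFinitelyPresented GG :=
  FIN.fp_of_P_S (H783.H104_perfect (ι := Fin 12) (by simp)) (H783.theoremP (by simp))
    (fun π hs hk hp => H700.ker_fg (by simp) Wang.localSets.univ
      (H513.cutInput_of' (by simp) (H798.stmtDec (Fin 12))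
        (Cut.fact_of H697.stmtB Cut.stmtC979 Cut.stmtE Cut.stmtF) H697.stmtB Cut.stmtC979)
      π hs hk hp)

theorem gg_wreath (Q : Type) [Group Q] [Finite Q] :
    ∃ φ : RegularWreathProduct GG Q →* GG, Function.Injective φ := by
  have := Fintype.ofFinite Q
  exact wreath_embeds (ι := Fin 12) Q (by simp) (by simp; decide)

theorem gg_infinite_order : ∃ g : GG, ¬ IsOfFinOrder g := infinite_order (by simp)

/-- A finitely presented group is given by finitely many generators and relators. -/
theorem exists_pres (G : Type) [Group G] (hG : Group.IsFinitelyPresented G) :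
    ∃ (n : ℕ) (R : Set (FreeGroup (Fin n))), R.Finite ∧ Nonempty (PresentedGroup R ≃* G) := by
  obtain ⟨n, π, hπ, R, hR, hker⟩ := hG.out
  exact ⟨n, R, hR, ⟨(QuotientGroup.quotientMulEquivOfEq hker).trans
    (QuotientGroup.quotientKerEquivOfSurjective π hπ)⟩⟩

end Vale.Agent.P196.H370
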