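import Vale.Agent.P196.S0.Simple
import Vale.Agent.P196.Tile.Inst
import Mathlib.GroupTheory.RegularWreathProduct

/-!
# P196: self-similarity of the group `grp ι LS`: copies of the group on residue classes
-/

noncomputable section

namespace Vale.Agent.P196.H370

open Equiv Vale.Agent.P196.S0 Vale.Agent.P196.Wang

section copy

variable {ι : Type} (m : ℕ) (c : Z2)

/-- The site `(p, f)` is placed at `(2 ^ m p + c, f)`. -/
def emb : Z2 × ι ↪ Z2 × ι where
  toFun z := ((2 ^ m * z.1.1 + c.1, 2 ^ m * z.1.2 + c.2), z.2)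
  inj' := by
    rintro ⟨⟨x, y⟩, f⟩ ⟨⟨x', y'⟩, f'⟩ h
    have hp : (2 : ℤ) ^ m ≠ 0 := by positivity
    simp only [Prod.mk.injEq, add_left_inj, mul_eq_mul_left_iff, hp, or_false] at h
    obtain ⟨⟨rfl, rfl⟩, rfl⟩ := h
    rfl

theorem emb_apply (z : Z2 × ι) :
    emb m c z = ((2 ^ m * z.1.1 + c.1, 2 ^ m * z.1.2 + c.2), z.2) := rfl

/-- The residue class. -/
def cls : Set Z2 := {u | ∃ w ∈ (Set.univ : Set Z2), u = (2 ^ m * w.1 + c.1, 2 ^ m * w.2 + c.2)}

theorem cls_mem : cls m c ∈ LS := LS_scale m c LS_univ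

/-- The copy of a permutation on a residue class. -/
def copy : Perm (Z2 × ι) →* Perm (Z2 × ι) := Perm.viaEmbeddingHom (emb m c)

theorem copy_apply (g : Perm (Z2 × ι)) (z : Z2 × ι) : copy m c g (emb m c z) = emb m c (g z) :=
  Perm.viaEmbedding_apply g (emb m c) z

theorem copy_apply' (g : Perm (Z2 × ι)) {z : Z2 × ι} (h : z.1 ∉ cls m c) :
    copy m c g z = z := by
  refine Perm.viaEmbedding_apply_of_notMem g (emb m c) z ?_
  rintro ⟨y, rfl⟩
  exact h ⟨y.1, Set.mem_univ _, rfl⟩

theorem copy_injective : Function.Injective (copy (ι := ι) m c) :=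
  Perm.viaEmbeddingHom_injective _

theorem copy_eP (E : Set Z2) (a : Perm ι) :
    copy m c (eP E a) =
      eP {u | ∃ w ∈ E, u = (2 ^ m * w.1 + c.1, 2 ^ m * w.2 + c.2)} a := by
  ext1 ⟨u, f⟩
  by_cases hu : u ∈ cls m c
  · obtain ⟨w, -, rfl⟩ := hu
    have h1 := copy_apply m c (eP E a) (w, f)
    rw [emb_apply] at h1
    simp only at h1
    rw [h1]
    by_cases hw : w ∈ E
    · have hm : ((2 ^ m * w.1 + c.1, 2 ^ m * w.2 + c.2) : Z2) ∈
          {u : Z2 | ∃ w ∈ E, u = (2 ^ m * w.1 + c.1, 2 ^ m * w.2 + c.2)} := ⟨w, hw, rfl⟩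
      rw [eP_apply_mem hw, eP_apply_mem hm, emb_apply]
    · rw [eP_apply_notMem hw, eP_apply_notMem, emb_apply]
      rintro ⟨w', hw', h⟩
      have hp : (2 : ℤ) ^ m ≠ 0 := by positivity
      simp only [Prod.mk.injEq, add_left_inj, mul_eq_mul_left_iff, hp, or_false] at h
      exact hw (by rw [Prod.ext h.1 h.2]; exact hw')
  · rw [copy_apply' m c _ hu, eP_apply_notMem]
    rintro ⟨w, hw, rfl⟩
    exact hu ⟨w, Set.mem_univ _, rfl⟩

theorem add_mem_cls {u : Z2} (w : Z2) : u + (2 ^ m : ℤ) • w ∈ cls m c ↔ u ∈ cls m c := by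
  constructor
  · rintro ⟨v, -, h⟩
    refine ⟨v - w, Set.mem_univ _, ?_⟩
    have h1 := congrArg Prod.fst h
    have h2 := congrArg Prod.snd h
    simp only [Prod.fst_add, Prod.snd_add, Prod.smul_fst, Prod.smul_snd, smul_eq_mul] at h1 h2
    refine Prod.ext ?_ ?_
    · simp only [Prod.fst_sub]; linarith
    · simp only [Prod.snd_sub]; linarith
  · rintro ⟨v, -, rfl⟩
    refine ⟨v + w, Set.mem_univ _, ?_⟩
    ext <;> simp <;> ring

theorem copy_dP (w : ι → Z2) (u : Z2) (f : ι) (hu : u ∈ cls m c) :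
    copy m c (dP w) (u, f) = (u + (2 ^ m : ℤ) • w f, f) := by
  obtain ⟨v, -, rfl⟩ := hu
  have h1 := copy_apply m c (dP w) (v, f)
  rw [emb_apply] at h1
  simp only at h1
  rw [h1, dP_apply, emb_apply]
  ext <;> simp <;> ring

/-- The commutator of a translation and a permutation over a residue class. -/
theorem copy_comm (w : ι → Z2) (a : Perm ι) :
    dP (fun f => (2 ^ m : ℤ) • w f) * eP (cls m c) a =
      copy m c (dP (fun f => w f - w (a⁻¹ f))) *
        (eP (cls m c) a * dP (fun f => (2 ^ m : ℤ) • w f)) := by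
  ext1 ⟨u, f⟩
  rw [Perm.mul_apply, Perm.mul_apply, Perm.mul_apply]
  by_cases hu : u ∈ cls m c
  · have hu' : u + (2 ^ m : ℤ) • w f ∈ cls m c := (add_mem_cls m c _).2 hu
    rw [eP_apply_mem hu, dP_apply, dP_apply, eP_apply_mem hu', copy_dP m c _ _ _ hu']
    refine Prod.ext ?_ rfl
    have h1 : a⁻¹ (a f) = f := a.symm_apply_apply f
    simp only [h1, smul_sub]
    abel
  · have hu' : u + (2 ^ m : ℤ) • w f ∉ cls m c := fun h => hu ((add_mem_cls m c _).1 h)
    rw [eP_apply_notMem hu, dP_apply, eP_apply_notMem hu', copy_apply' m c _ hu']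

end copy

variable {ι : Type} [Fintype ι] [DecidableEq ι]

theorem copy_dP_mem (hι : 5 ≤ Fintype.card ι) (m : ℕ) (c : Z2) (w : ι → Z2)
    (hw : ∑ i, w i = 0) : copy m c (dP w) ∈ grp ι LS := by
  -- two floors
  have h1 : ∀ i j : ι, i ≠ j → ∀ v : Z2,
      copy m c (dP (Pi.single j v - Pi.single i v)) ∈ grp ι LS := by
    intro i j hij v
    obtain ⟨l, hl⟩ := exists_floor hι {i, j} ((Finset.card_le_two).trans (by norm_num))
    obtain ⟨k, hk⟩ := exists_floor hι {i, j, l} ((Finset.card_le_three).trans (by norm_num))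
    simp only [Finset.mem_insert, Finset.mem_singleton, not_or] at hl hk
    -- `a = (j i l)`
    set a : Perm ι := cyc j i l with ha
    have haj : a j = i := cyc_apply_a (Ne.symm hij) (Ne.symm hl.2)
    have hak : a k = k := cyc_apply_of hk.2.1 hk.1 hk.2.2
    have haA : a ∈ alternatingGroup ι := cyc_mem_alternating (Ne.symm hij) (Ne.symm hl.1)
    set w : ι → Z2 := Pi.single j v - Pi.single k v with hw
    have hwsum : ∑ x, w x = 0 := by
      simp [hw, Finset.sum_sub_distrib]
    have hwsum' : ∑ x, (2 ^ m : ℤ) • w x = 0 := by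
      rw [← Finset.smul_sum, hwsum, smul_zero]
    have h2 : (fun f => w f - w (a⁻¹ f)) = Pi.single j v - Pi.single i v := by
      ext1 f
      rw [hw]
      simp only [Pi.sub_apply, Pi.single_apply]
      have e1 : (a⁻¹ f = j) ↔ (f = i) := by rw [Perm.inv_eq_iff_eq, haj]
      have e2 : (a⁻¹ f = k) ↔ (f = k) := by rw [Perm.inv_eq_iff_eq, hak]
      simp only [e1, e2]
      abel
    have h3 := copy_comm m c w a
    rw [h2, ← mul_inv_eq_iff_eq_mul] at h3
    rw [← h3]
    have m1 : dP (fun f => (2 ^ m : ℤ) • w f) ∈ grp ι LS := dP_mem hwsum'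
    have m2 : eP (cls m c) a ∈ grp ι LS := eP_mem (cls_mem m c) haA
    exact mul_mem (mul_mem m1 m2) (inv_mem (mul_mem m2 m1))
  obtain ⟨i0, -⟩ := exists_floor hι ∅ (by simp)
  have h4 : ∀ S : Finset ι,
      copy m c (dP (∑ i ∈ S, (Pi.single i (w i) - Pi.single i0 (w i)))) ∈ grp ι LS := by
    intro S
    induction S using Finset.induction_on with
    | empty => rw [Finset.sum_empty, dP_zero, map_one]; exact one_mem _
    | insert i S hi ih =>
      rw [Finset.sum_insert hi, ← dP_mul, map_mul]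
      apply mul_mem _ ih
      by_cases hi0 : i0 = i
      · subst hi0
        rw [sub_self, dP_zero, map_one]
        exact one_mem _
      · exact h1 i0 i hi0 (w i)
  have h5 : w = ∑ i, (Pi.single i (w i) - Pi.single i0 (w i)) := by
    rw [Finset.sum_sub_distrib]
    have h6 : ∑ i, (Pi.single i0 (w i) : ι → Z2) = 0 := by
      ext1 k
      rw [Finset.sum_apply]
      by_cases hk : k = i0
      · subst hk
        simpa using hw
      · simp [hk]
    rw [h6, sub_zero]
    ext1 k
    rw [Finset.sum_apply]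
    simp [Pi.single_apply]
  rw [h5]
  exact h4 _

/-- The copy of the group on a residue class is contained in the group. -/
theorem copy_mem (hι : 5 ≤ Fintype.card ι) (m : ℕ) (c : Z2) {g : Perm (Z2 × ι)}
    (hg : g ∈ grp ι LS) : copy m c g ∈ grp ι LS := by
  have : grp ι LS ≤ (grp ι LS).comap (copy m c) := by
    rw [grp, Subgroup.closure_le]
    rintro x (⟨E, hE, a, ha, rfl⟩ | ⟨w, hw, rfl⟩)
    · change copy m c (eP E a) ∈ grp ι LS
      rw [copy_eP]
      exact eP_mem (LS_scale m c hE) ha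
    · exact copy_dP_mem hι m c w hw
  exact this hg

end Vale.Agent.P196.H370
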