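import Vale.Agent.P196.H370.Self
import Mathlib.Logic.Equiv.Fin.Basic

/-!
# P196: wreath products with finite groups embed in `grp ι LS`; bounded displacement
-/

noncomputable section

namespace Vale.Agent.P196.H370

open Equiv Vale.Agent.P196.S0 Vale.Agent.P196.Wang RegularWreathProduct

section wreath

variable {ι : Type} (Q : Type) [Fintype Q]

/-- The residues attached to the elements of `Q`. -/
def res (x : Q) : Z2 := (((Fintype.equivFin Q x : ℕ) : ℤ), 0)

theorem res_inj {x y : Q} {p p' : Z2}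
    (h : ((2 ^ Fintype.card Q * p.1 + (res Q x).1, 2 ^ Fintype.card Q * p.2 + (res Q x).2) : Z2) =
      (2 ^ Fintype.card Q * p'.1 + (res Q y).1, 2 ^ Fintype.card Q * p'.2 + (res Q y).2)) :
    p = p' ∧ x = y := by
  set N : ℤ := 2 ^ Fintype.card Q with hN
  have hp : (0 : ℤ) < N := by positivity
  have hlt : ∀ z : Q, ((Fintype.equivFin Q z : ℕ) : ℤ) < N := by
    intro z
    have h1 : (Fintype.equivFin Q z : ℕ) < Fintype.card Q := (Fintype.equivFin Q z).2
    have h2 : Fintype.card Q < 2 ^ Fintype.card Q := Nat.lt_two_pow_self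
    have h3 := h1.trans h2
    rw [hN]
    exact_mod_cast h3
  obtain ⟨h1, h2⟩ := Prod.mk.inj h
  have e1 : (N * p.1 + (res Q x).1) % N = (res Q x).1 := by
    rw [Int.mul_add_emod_self_left]
    exact Int.emod_eq_of_lt (Int.natCast_nonneg _) (hlt x)
  have e2 : (N * p'.1 + (res Q y).1) % N = (res Q y).1 := by
    rw [Int.mul_add_emod_self_left]
    exact Int.emod_eq_of_lt (Int.natCast_nonneg _) (hlt y)
  have e3 : (res Q x).1 = (res Q y).1 := by rw [← e1, ← e2, h1]
  have e4 : x = y := by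
    have : ((Fintype.equivFin Q x : ℕ) : ℤ) = ((Fintype.equivFin Q y : ℕ) : ℤ) := e3
    exact (Fintype.equivFin Q).injective (Fin.ext (by exact_mod_cast this))
  subst e4
  refine ⟨Prod.ext ?_ ?_, rfl⟩
  · exact mul_left_cancel₀ hp.ne' (add_right_cancel h1)
  · exact mul_left_cancel₀ hp.ne' (add_right_cancel h2)

/-- The placement of `|Q|` copies of the sites. -/
def embQ : (Z2 × ι) × Q ↪ Z2 × ι where
  toFun z := emb (Fintype.card Q) (res Q z.2) z.1
  inj' := by
    rintro ⟨⟨p, f⟩, x⟩ ⟨⟨p', f'⟩, y⟩ h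
    obtain ⟨h1, h2⟩ := Prod.mk.inj h
    obtain ⟨rfl, rfl⟩ := res_inj Q h1
    simp only at h2
    rw [h2]

theorem embQ_apply (z : Z2 × ι) (x : Q) :
    embQ Q (z, x) = emb (Fintype.card Q) (res Q x) z := rfl

variable [Group Q] [Fintype ι] [DecidableEq ι]

/-- The action of the wreath product. -/
def wr [Nonempty ι] : (grp ι LS) ≀ᵣ Q →* Perm (Z2 × ι) :=
  (Perm.viaEmbeddingHom (embQ Q)).comp (toPerm (grp ι LS) Q (Z2 × ι))

theorem wr_apply [Nonempty ι] (w : (grp ι LS) ≀ᵣ Q) (z : Z2 × ι) (x : Q) :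
    wr Q w (embQ Q (z, x)) =
      embQ Q ((w.left (w.right * x) : Perm (Z2 × ι)) z, w.right * x) :=
  Perm.viaEmbedding_apply (toPerm (grp ι LS) Q (Z2 × ι) w) (embQ Q) (z, x)

theorem wr_apply' [Nonempty ι] (w : (grp ι LS) ≀ᵣ Q) (z : Z2 × ι)
    (h : z ∉ Set.range (embQ (ι := ι) Q)) : wr Q w z = z :=
  Perm.viaEmbedding_apply_of_notMem (toPerm (grp ι LS) Q (Z2 × ι) w) (embQ Q) z h

theorem wr_injective [Nonempty ι] : Function.Injective (wr (ι := ι) Q) := by
  have : Nonempty (Z2 × ι) := ⟨((0, 0), Classical.arbitrary ι)⟩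
  exact (Perm.viaEmbeddingHom_injective _).comp (toPermInj (grp ι LS) Q (Z2 × ι))

/-- The base group. -/
def base : (Q → grp ι LS) →* (grp ι LS) ≀ᵣ Q where
  toFun a := ⟨a, 1⟩
  map_one' := rfl
  map_mul' a b := by ext <;> simp

theorem wr_base_single [Nonempty ι] [DecidableEq Q] (x : Q) (g : grp ι LS) :
    wr Q (base Q (Pi.mulSingle x g)) = copy (Fintype.card Q) (res Q x) (g : Perm (Z2 × ι)) := by
  ext1 z
  by_cases hz : z ∈ Set.range (embQ (ι := ι) Q)
  · obtain ⟨⟨z, y⟩, rfl⟩ := hz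
    rw [wr_apply]
    change embQ Q (((Pi.mulSingle x g : Q → grp ι LS) (1 * y) : Perm (Z2 × ι)) z, 1 * y) = _
    rw [one_mul]
    by_cases hy : y = x
    · subst hy
      rw [Pi.mulSingle_eq_same, embQ_apply, embQ_apply, copy_apply]
    · rw [Pi.mulSingle_eq_of_ne hy, copy_apply']
      · rfl
      · rintro ⟨p, -, hp⟩
        exact hy (res_inj Q hp).2
  · rw [wr_apply' Q _ _ hz, copy_apply']
    rintro ⟨p, -, hp⟩
    exact hz ⟨((p, z.2), x), Prod.ext hp.symm rfl⟩

theorem wr_base_mem [Nonempty ι] (hι : 5 ≤ Fintype.card ι) (a : Q → grp ι LS) :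
    wr Q (base Q a) ∈ grp ι LS := by
  classical
  have : a ∈ (grp ι LS).comap ((wr Q).comp (base Q)) := by
    refine Subgroup.pi_mem_of_mulSingle_mem a fun x => ?_
    change wr Q (base Q (Pi.mulSingle x (a x))) ∈ grp ι LS
    rw [wr_base_single]
    exact copy_mem hι _ _ (a x).2
  exact this

open Classical in
/-- The residues. -/
def VQ : Finset Z2 := Finset.univ.image (res Q)

theorem res_injective : Function.Injective (res Q) := fun x y h =>
  (res_inj Q (p := (0, 0)) (p' := (0, 0)) (by rw [h])).2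

/-- The residues. -/
def eV : Q ≃ VQ Q :=
  Equiv.ofBijective (fun x => ⟨res Q x, Finset.mem_image_of_mem _ (Finset.mem_univ x)⟩)
    ⟨fun x y h => res_injective Q (congrArg Subtype.val h), fun ⟨v, hv⟩ => by
      obtain ⟨x, -, rfl⟩ := Finset.mem_image.1 hv
      exact ⟨x, rfl⟩⟩

theorem eV_apply (x : Q) : ((eV Q x : VQ Q) : Z2) = res Q x := rfl

theorem small_VQ : Small (cls (Fintype.card Q) 0) (VQ Q) := by
  rintro v hv v' hv' _ ⟨p, -, rfl⟩ _ ⟨p', -, rfl⟩ h
  obtain ⟨x, -, rfl⟩ := Finset.mem_image.1 hv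
  obtain ⟨y, -, rfl⟩ := Finset.mem_image.1 hv'
  rw [(res_inj Q (p := p) (p' := p') (x := x) (y := y) ?_).2]
  simpa [Prod.ext_iff] using h

/-- The permutation of the residues. -/
def sgQ (q : Q) : Perm (VQ Q × ι) :=
  Equiv.prodCongrLeft fun _ : ι => (eV Q).permCongr (Equiv.mulLeft q)

theorem sgQ_apply (q x : Q) (f : ι) : sgQ Q q (eV Q x, f) = (eV Q (q * x), f) := by
  simp [sgQ, Equiv.permCongr_apply]

theorem sgQ_mem (he : Even (Fintype.card ι)) (q : Q) :
    sgQ (ι := ι) Q q ∈ alternatingGroup (VQ Q × ι) := by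
  rw [Perm.mem_alternatingGroup, sgQ, Perm.sign_prodCongrLeft, Finset.prod_const,
    Finset.card_univ]
  obtain ⟨k, hk⟩ := he
  rw [hk, pow_add, Int.units_mul_self]

theorem wr_inl [Nonempty ι] (q : Q) :
    wr Q (inl q) = blow (cls (Fintype.card Q) 0) (VQ Q) (small_VQ Q) (sgQ (ι := ι) Q q) := by
  ext1 z
  by_cases hz : z ∈ Set.range (embQ (ι := ι) Q)
  · obtain ⟨⟨⟨p, f⟩, y⟩, rfl⟩ := hz
    rw [wr_apply]
    have hx : ((2 ^ Fintype.card Q * p.1 + (0 : Z2).1, 2 ^ Fintype.card Q * p.2 + (0 : Z2).2) : Z2)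
        ∈ cls (Fintype.card Q) 0 := ⟨p, Set.mem_univ _, rfl⟩
    have h1 := blow_apply (small_VQ Q) (sgQ (ι := ι) Q q) hx (eV Q y, f)
    rw [sgQ_apply] at h1
    simp only [eV_apply] at h1
    have h2 : embQ Q ((p, f), y) =
        ((2 ^ Fintype.card Q * p.1 + (0 : Z2).1, 2 ^ Fintype.card Q * p.2 + (0 : Z2).2) + res Q y,
          f) := by
      rw [embQ_apply, emb_apply]
      simp [Prod.ext_iff]
    rw [h2, h1]
    change embQ Q ((1 : Perm (Z2 × ι)) (p, f), q * y) = _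
    rw [Perm.one_apply, embQ_apply, emb_apply]
    simp [Prod.ext_iff]
  · rw [wr_apply' Q _ _ hz]
    obtain ⟨u, f⟩ := z
    refine (blow_eq_self _ _ fun v hv => ?_).symm
    exfalso
    obtain ⟨v, hv'⟩ := v
    obtain ⟨x, -, rfl⟩ := Finset.mem_image.1 hv'
    obtain ⟨p, -, hp⟩ := hv
    refine hz ⟨((p, f), x), ?_⟩
    rw [embQ_apply, emb_apply]
    refine Prod.ext ?_ rfl
    have hu : u = (2 ^ Fintype.card Q * p.1 + (0 : Z2).1, 2 ^ Fintype.card Q * p.2 + (0 : Z2).2) +
        res Q x := by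
      rw [← hp]; simp
    rw [hu]
    simp [Prod.ext_iff]

/-- **The wreath product with a finite group embeds in the group.** -/
theorem wreath_embeds (hι : 5 ≤ Fintype.card ι) (he : Even (Fintype.card ι)) :
    ∃ φ : (grp ι LS) ≀ᵣ Q →* grp ι LS, Function.Injective φ := by
  have : Nonempty ι := Fintype.card_pos_iff.1 (by omega)
  have hmem : ∀ w : (grp ι LS) ≀ᵣ Q, wr Q w ∈ grp ι LS := by
    intro w
    have hw : w = base Q w.left * inl w.right := by
      ext <;> simp [base]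
    rw [hw, map_mul]
    refine mul_mem (wr_base_mem Q hι _) ?_
    rw [wr_inl]
    exact blow_mem hι (cls_mem _ _) _ _ (sgQ_mem Q he _)
  refine ⟨(wr Q).codRestrict (grp ι LS) hmem, fun a b h => wr_injective (ι := ι) Q ?_⟩
  exact congrArg Subtype.val h

end wreath

end Vale.Agent.P196.H370
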